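import Vale.Agent.P101K.Main

namespace Vale.Agent.P133

open Vale.Agent.P101K

universe u

/-- the abstract computation from Rordam-Winter data to the rows `c`, `w` -/
theorem data_aux {D : Type u} [CStarAlgebra D] [PartialOrder D] [StarOrderedRing D] {q : ℕ}
    (Φ : Matrix (Fin (q + 1)) (Fin (q + 1)) ℂ →ₗ[ℂ] D) (hΦ : IsOZ Φ) (h0 : 0 ≤ Φ 1)
    (v : D) (hv : star v * v = 1 - Φ 1) (hv2 : Φ (eu 0 0) * v = v) :
    ∃ (c : Fin (q + 1) → D) (m w : D), (∃ r, m = star r * r) ∧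
      (∀ i j, c i * star (c j) = if i = j then m else 0) ∧ m * w = w ∧
      (∑ j, star (c j) * c j) + star w * w = 1 := by
  have hst : ∀ i j, star (Φ (eu i j)) = Φ (eu j i) := by
    intro i j
    rw [← hΦ.star', Matrix.conjTranspose_single, star_one]
  obtain ⟨s, hs, hss, hsc⟩ : ∃ s : D, star s = s ∧ s * s = 1 + Φ 1 ∧ Commute s (1 - Φ 1) := by
    refine ⟨CFC.sqrt (1 + Φ 1), (CFC.sqrt_nonneg _).isSelfAdjoint.star_eq,
      CFC.sqrt_mul_sqrt_self _ (add_nonneg zero_le_one h0), ?_⟩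
    refine Commute.cfcₙ_nnreal ?_ _
    show (1 + Φ 1) * (1 - Φ 1) = (1 - Φ 1) * (1 + Φ 1)
    noncomm_ring
  refine ⟨fun j => Φ (eu 0 j), Φ (eu 0 0) * Φ (eu 0 0), v * s, ⟨Φ (eu 0 0), ?_⟩, ?_, ?_, ?_⟩
  · rw [hst]
  · intro i j
    rw [hst, hΦ.mul']
    split_ifs with hij
    · subst hij
      have e0 : Φ (eu 0 0) * Φ (eu 0 0) = Φ 1 * Φ (eu 0 0) := by
        rw [hΦ.mul', Matrix.single_mul_single_same, mul_one]
      rw [Matrix.single_mul_single_same, mul_one, e0]
    · rw [Matrix.single_mul_single_of_ne _ _ _ _ hij, map_zero, mul_zero]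
  · rw [mul_assoc, ← mul_assoc (Φ (eu 0 0)) v, hv2, ← mul_assoc, hv2]
  · have e1 : ∀ j, star (Φ (eu 0 j)) * Φ (eu 0 j) = Φ 1 * Φ (eu j j) := by
      intro j
      rw [hst, hΦ.mul', Matrix.single_mul_single_same, mul_one]
    have e2 : (∑ j, star (Φ (eu 0 j)) * Φ (eu 0 j)) = Φ 1 * Φ 1 := by
      simp only [e1]
      rw [← Finset.mul_sum, ← map_sum]
      congr 2
      ext a b
      rw [Matrix.sum_apply]
      by_cases hab : a = b
      · subst hab
        rw [Matrix.one_apply_eq, Finset.sum_eq_single a]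
        · simp
        · intro c _ hc
          simp [hc]
        · intro h
          exact absurd (Finset.mem_univ a) h
      · rw [Matrix.one_apply_ne hab]
        refine Finset.sum_eq_zero fun c _ => ?_
        have h3 : ¬ (c = a ∧ c = b) := fun h => hab (h.1.symm.trans h.2)
        simp [h3]
    have e3 : star (v * s) * (v * s) = 1 - Φ 1 * Φ 1 := by
      rw [star_mul, hs, mul_assoc, ← mul_assoc (star v) v, hv, ← hsc.eq, ← mul_assoc, hss]
      noncomm_ring
    rw [e2, e3]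
    abel

/-- DATA.  From the Rordam-Winter data `Φ : M_(q+1) → D`, `v` (`main_abstract`): put `h = Φ 1`,
`c j = Φ (eu 0 j)`, `m = h * Φ (eu 0 0)`, `w = v * √(1 + h)`.  Then `c i c j* = Φ (eu 0 i * eu j 0)`
times `h`, `∑ c j* c j = h²`, `w* w = (1 - h)(1 + h)`, `Φ (eu 0 0) w = w`, `h w = w`
(`h v = v` as in `exists_PS`). -/
theorem exists_data {D : Type u} [CStarAlgebra D] [Nontrivial D] (hD : HasCopies D)
    (h : IsEmpty (D →⋆ₐ[ℂ] ℂ)) (K : ℕ) :
    ∃ (c : Fin (K + 2) → D) (m w : D), (∃ r, m = star r * r) ∧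
      (∀ i j, c i * star (c j) = if i = j then m else 0) ∧ m * w = w ∧
      (∑ j, star (c j) * c j) + star w * w = 1 := by
  let _ : PartialOrder D := CStarAlgebra.spectralOrder D
  have _ : StarOrderedRing D := CStarAlgebra.spectralOrderedRing D
  obtain ⟨Φ, hΦ, h0, h1, v, hv, hv2⟩ := main_abstract hD h (K + 1) (by omega)
  exact data_aux Φ hΦ h0 v hv hv2

end Vale.Agent.P133
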